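import Vale.Agent.P273SF.Nbh

/-!
Properness of the isomorphisms of fibres, from the convergence at the smooth points.
-/

noncomputable section

namespace Vale.Agent.P273SF

open Set Filter Topology Metric Vale.Agent.P273.H183 Vale.Agent.P273.H948 Vale.Agent.P273SD

/-- Isomorphisms of fibres over convergent points converge near a smooth point, to a smooth
point. -/
def SMC : Prop :=
  ∀ (L : Type) [Finite L] (m m' : ℕ) (C : Fam L m) (C' : Fam L m'), C.IsStable → C'.IsStable →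
    ∀ (ι : Type) (𝒰 : Ultrafilter ι) (b : ι → Fin m → ℂ) (b' : ι → Fin m' → ℂ)
      (φ : ι → C.X → C'.X), ∀ b₀ ∈ C.B, ∀ b₀' ∈ C'.B,
      Tendsto b 𝒰 (𝓝 b₀) → Tendsto b' 𝒰 (𝓝 b₀') →
      (∀ᶠ j in (𝒰 : Filter ι), FIso C (b j) C' (b' j) (φ j)) →
      ∀ p ∈ C.fib b₀, Sm C p → ∃ q, Sm C' q ∧
        Tendsto (fun x : ι × C.X => φ x.1 x.2) (near C 𝒰 b p) (𝓝 q)

variable {L : Type} {m m' : ℕ} {ι : Type} {C : Fam L m} {C' : Fam L m'}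
  {b : ι → Fin m → ℂ} {b' : ι → Fin m' → ℂ} {b₀ : Fin m → ℂ} {b₀' : Fin m' → ℂ}
  {φ : ι → C.X → C'.X} {ψ : ι → C'.X → C.X} {p : C.X}

/-- The maps `φ j` converge to `q` near `p`. -/
def Cv (C : Fam L m) (C' : Fam L m') (l : Filter ι) (b : ι → Fin m → ℂ) (φ : ι → C.X → C'.X)
    (p : C.X) (q : C'.X) : Prop :=
  Tendsto (fun x : ι × C.X => φ x.1 x.2) (near C l b p) (𝓝 q)

section
variable {l : Filter ι}

theorem ev_fib (hφ : ∀ᶠ j in l, FIso C (b j) C' (b' j) (φ j)) :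
    ∀ᶠ x in near C l b p, C'.π (φ x.1 x.2) = b' x.1 := by
  filter_upwards [near_fst.eventually hφ, near_fib] with x h1 h2 using h1.bij.mapsTo h2

theorem lim_fib (hC' : C'.IsStable) (hb' : Tendsto b' l (𝓝 b₀'))
    (hφ : ∀ᶠ j in l, FIso C (b j) C' (b' j) (φ j)) {k : Filter (ι × C.X)} [k.NeBot]
    (hk : k ≤ near C l b p) {q : C'.X} (h : Tendsto (fun x : ι × C.X => φ x.1 x.2) k (𝓝 q)) :
    q ∈ C'.fib b₀' :=
  tendsto_nhds_unique (((cont_π hC').tendsto q).comp h)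
    ((hb'.comp (near_fst.mono_left hk)).congr'
      (((ev_fib hφ).filter_mono hk).mono fun _ hx => hx.symm))

theorem back (hC : C.IsStable) (hφ : ∀ᶠ j in l, FIso C (b j) C' (b' j) (φ j))
    (hi : ∀ᶠ j in l, LeftInvOn (ψ j) (φ j) (C.fib (b j))) {k : Filter (ι × C.X)} [k.NeBot]
    (hk : k ≤ near C l b p) {q : C'.X} (h : Tendsto (fun x : ι × C.X => φ x.1 x.2) k (𝓝 q))
    {r : C.X} (h' : Cv C' C l b' ψ q r) : r = p := by
  have := hC.2.1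
  have h1 := Tendsto.comp h' (tendsto_near (near_fst.mono_left hk) h ((ev_fib hφ).filter_mono hk))
  refine tendsto_nhds_unique h1 ((near_snd.mono_left hk).congr' ?_)
  filter_upwards [(near_fst.eventually hi).filter_mono hk, near_fib.filter_mono hk] with x h2 h3
  exact (h2 h3).symm

theorem exists_lim (hC' : C'.IsStable) (hb₀' : b₀' ∈ C'.B) (hb' : Tendsto b' l (𝓝 b₀'))
    (hφ : ∀ᶠ j in l, FIso C (b j) C' (b' j) (φ j)) (k : Ultrafilter (ι × C.X))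
    (hk : ↑k ≤ near C l b p) : ∃ q, Tendsto (fun x : ι × C.X => φ x.1 x.2) k (𝓝 q) := by
  obtain ⟨K, h1, h2, h3⟩ := local_compact_nhds (hC'.1.mem_nhds hb₀')
  obtain ⟨q, -, h4⟩ := (hC'.2.2.2.1 K h2 h3).ultrafilter_le_nhds (k.map fun x => φ x.1 x.2)
    (le_principal_iff.2 (by
      refine mem_map.2 ?_
      filter_upwards [(ev_fib hφ).filter_mono hk, (hb'.comp (near_fst.mono_left hk)) h1]
        with x h5 h6
      rw [mem_preimage, mem_preimage, h5]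
      exact h6))
  exact ⟨q, h4⟩

end

variable {𝒰 : Ultrafilter ι}

/-- The convergence near a node. -/
theorem cv_node (hC : C.IsStable) (hC' : C'.IsStable) (hb₀' : b₀' ∈ C'.B)
    (hb : Tendsto b 𝒰 (𝓝 b₀)) (hb' : Tendsto b' 𝒰 (𝓝 b₀'))
    (hφ : ∀ᶠ j in (𝒰 : Filter ι), FIso C (b j) C' (b' j) (φ j))
    (hi : ∀ᶠ j in (𝒰 : Filter ι), LeftInvOn (ψ j) (φ j) (C.fib (b j)))
    (hψ : ∀ q ∈ C'.fib b₀', Sm C' q → ∃ r, Sm C r ∧ Cv C' C 𝒰 b' ψ q r)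
    (hp : p ∈ C.fib b₀) (hs : ¬ Sm C p) : ∃ q, Cv C C' 𝒰 b φ p q := by
  have := hC'.2.1
  obtain rfl : C.π p = b₀ := hp
  have key : ∀ k : Ultrafilter (ι × C.X), ↑k ≤ near C 𝒰 b p → ∃ q ∈ {q ∈ C'.fib b₀' | ¬ Sm C' q},
      Tendsto (fun x : ι × C.X => φ x.1 x.2) k (𝓝 q) := by
    intro k hk
    obtain ⟨q, hq⟩ := exists_lim hC' hb₀' hb' hφ k hk
    have h1 := lim_fib hC' hb' hφ hk hq
    refine ⟨q, ⟨h1, fun h2 => ?_⟩, hq⟩
    obtain ⟨r, h3, h4⟩ := hψ q h1 h2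
    exact hs (back hC hφ hi hk hq h4 ▸ h3)
  obtain ⟨σ, hσ, hσb⟩ := exists_sec hC hb
  obtain ⟨q, hq, h1⟩ := key (𝒰.map fun j => (j, σ j)) (tendsto_near tendsto_id hσ hσb)
  have h2 : Tendsto (fun j => φ j (σ j)) 𝒰 (𝓝 q) := h1
  obtain ⟨O, V, hO, hV, h3, h4, h5⟩ :=
    ((finite_nodes hC' hb₀').subset (sdiff_subset (t := {q}))).isCompact.separation_of_notMem
      (x := q) fun h => h.2 rfl
  refine ⟨q, (nhds_basis_opens q).tendsto_right_iff.2 fun V' hV' => ?_⟩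
  have hVo : IsOpen (V ∩ V') := hV.inter hV'.2
  have h6 : ∀ᶠ x in near C 𝒰 b p, φ x.1 x.2 ∈ (V ∩ V') ∪ O := by
    refine mem_iff_ultrafilter.2 fun k hk => ?_
    obtain ⟨r, hr, h7⟩ := key k hk
    refine h7 ((hVo.union hO).mem_nhds ?_)
    by_cases e : r = q
    · exact Or.inl (e ▸ ⟨h4, hV'.1⟩)
    · exact Or.inr (h3 ⟨hr, e⟩)
  obtain ⟨W, hW, h7⟩ := (ev_near (P := fun j x => φ j x ∈ (V ∩ V') ∪ O)).1 h6
  obtain ⟨W', hW', h8, h9⟩ := conn_node hC hs hW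
  refine (ev_near (P := fun j x => φ j x ∈ V')).2 ⟨W', hW', ?_⟩
  filter_upwards [h7, hb.eventually h9, hφ, hσ hW', hσb, h2 (hVo.mem_nhds ⟨h4, hV'.1⟩)]
    with j h10 h11 h12 h13 h14 h15 x hx hxb
  have h16 : φ j '' (W' ∩ C.fib (b j)) ⊆ V ∩ V' :=
    (h11.image _ (h12.cont.mono inter_subset_right)).subset_left_of_subset_union hVo hO
      (h5.symm.mono_left inter_subset_left)
      (by rintro _ ⟨y, hy, rfl⟩; exact h10 y (h8 hy.1) hy.2)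
      ⟨_, ⟨σ j, ⟨h13, h14⟩, rfl⟩, h15⟩
  exact (h16 ⟨x, ⟨hx, hxb⟩, rfl⟩).2

section
variable {l : Filter ι} [l.NeBot] {φ₀ : C.X → C'.X}

theorem cont_lim (hC : C.IsStable) (hC' : C'.IsStable) (hb : Tendsto b l (𝓝 b₀))
    (h : ∀ p ∈ C.fib b₀, Cv C C' l b φ p (φ₀ p)) : ContinuousOn φ₀ (C.fib b₀) := by
  have := regular hC'
  intro p hp
  refine (closed_nhds_basis (φ₀ p)).tendsto_right_iff.2 fun N hN => ?_
  obtain ⟨W, hW, h1⟩ := (ev_near (P := fun j x => φ j x ∈ N)).1 (h p hp hN.1)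
  filter_upwards [mem_nhdsWithin_of_mem_nhds (eventually_mem_nhds_iff.2 hW), self_mem_nhdsWithin]
    with q h2 h3
  have := near_neBot hC (l := l) (b := b) (p := q) (by rwa [show C.π q = b₀ from h3])
  exact hN.2.mem_of_tendsto (h q h3) ((ev_near (P := fun j x => φ j x ∈ N)).2 ⟨W, h2, h1⟩)

theorem ev_holF_Pc [Nonempty C.X] {U : Set C.X} {u v : C.X → ℂ} {t : (Fin m → ℂ) → ℂ}
    (h : Mod C U u v t) (hp : p ∈ U) (h0 : u p ≠ 0) :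
    ∀ᶠ x : (Fin m → ℂ) × ℂ in 𝓝 (C.π p, u p), HolF C x.1 (Pc C U u v t x.1) x.2 := by
  filter_upwards [ev_Pc h hp h0, continuous_snd.continuousAt (isOpen_ne.mem_nhds h0)]
    with x ⟨h1, h2, h3⟩ h4
  have h5 := holF_br h h1 (fun h6 => absurd (h3.symm.trans h6) h4)
  rwa [h2, h3] at h5

theorem fh_lim_sm (hC' : C'.IsStable) (hb : Tendsto b l (𝓝 b₀)) (hb' : Tendsto b' l (𝓝 b₀'))
    (hφ : ∀ᶠ j in l, FIso C (b j) C' (b' j) (φ j))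
    (h : ∀ p ∈ C.fib b₀, Cv C C' l b φ p (φ₀ p)) (hp : p ∈ C.fib b₀) (hs : Sm C p)
    {f : C'.X → ℂ} (hf : C'.hol f (φ₀ p)) : FH C b₀ (fun q => f (φ₀ q)) p := by
  have : Nonempty C.X := ⟨p⟩
  obtain ⟨U, u, v, t, hU, hm, h0⟩ := hs
  obtain rfl : C.π p = b₀ := hp
  have h1 : ∀ z, Tendsto (fun x : ι × ℂ => (b x.1, x.2)) (l ×ˢ 𝓝 z) (𝓝 (C.π p, z)) := fun z =>
    (hb.comp tendsto_fst).prodMk_nhds tendsto_snd
  have hh : EH C' l b' (fun j z => φ j (Pc C U u v t (b j) z)) (u p) := by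
    filter_upwards [(h1 _).eventually (ev_holF_Pc hm hU h0), tendsto_fst.eventually hφ]
      with x h2 h3 using h3.holF h2
  have hc : ∀ᶠ z in 𝓝 (u p), CC C' l (fun j z => φ j (Pc C U u v t (b j) z)) z
      (φ₀ (Pc C U u v t (C.π p) z)) := by
    filter_upwards [ev_br hm hU (absurd · h0), isOpen_ne.mem_nhds h0] with z ⟨h2, h3, h4, _⟩ h5
    have h6 : u (Pc C U u v t (C.π p) z) ≠ 0 := by rwa [h4]
    have h7 := tendsto_Pc hm h2 h6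
    have h8 := ev_Pc hm h2 h6
    rw [h3, h4] at h7 h8
    exact Tendsto.comp (h _ h3) (tendsto_near tendsto_fst (h7.comp (h1 z))
      (((h1 z).eventually h8).mono fun x hx => hx.2.1))
  have h2 := holF_lim hC' hb' hh hc
  exact fh_smooth hm hU h0 (h2.an f (by rwa [Pc_self hm hU (absurd · h0)]))

theorem fh_lim (hC : C.IsStable) (hC' : C'.IsStable) (hb : Tendsto b l (𝓝 b₀))
    (hb' : Tendsto b' l (𝓝 b₀')) (hφ : ∀ᶠ j in l, FIso C (b j) C' (b' j) (φ j))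
    (h : ∀ p ∈ C.fib b₀, Cv C C' l b φ p (φ₀ p)) (hp : p ∈ C.fib b₀)
    {f : C'.X → ℂ} (hf : C'.hol f (φ₀ p)) : FH C b₀ (fun q => f (φ₀ q)) p := by
  have h1 := cont_lim hC hC' hb h p hp
  obtain ⟨h2, h3⟩ := hol_ev hC' hf
  refine fh_removable hC hp (h2.tendsto.comp h1) ?_
  filter_upwards [h1.tendsto.eventually h3, mem_nhdsWithin_of_mem_nhds (ev_sm hC p),
    self_mem_nhdsWithin] with q h4 h5 h6 h7
  exact fh_lim_sm hC' hb hb' hφ h h6 (h5 (Eq.trans h6 (Eq.symm hp)) h7) h4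

theorem mark_lim (hC : C.IsStable) (hC' : C'.IsStable) (hb₀ : b₀ ∈ C.B) (hb₀' : b₀' ∈ C'.B)
    (hb : Tendsto b l (𝓝 b₀)) (hb' : Tendsto b' l (𝓝 b₀'))
    (hφ : ∀ᶠ j in l, FIso C (b j) C' (b' j) (φ j))
    (h : ∀ p ∈ C.fib b₀, Cv C C' l b φ p (φ₀ p)) (i : L) : φ₀ (C.s i b₀) = C'.s i b₀' := by
  have := hC'.2.1
  have h1 := (hC.2.2.2.2.2 b₀ hb₀).2.1 i
  have h2 := Tendsto.comp (h _ h1.1) (tendsto_near tendsto_id (h1.2.1.tendsto.comp hb)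
    ((hb.eventually (hC.1.mem_nhds hb₀)).mono fun j hj => ((hC.2.2.2.2.2 _ hj).2.1 i).1))
  exact tendsto_nhds_unique h2 (((((hC'.2.2.2.2.2 b₀' hb₀').2.1 i).2.1.tendsto).comp hb').congr'
    (hφ.mono fun j hj => (hj.mark i).symm))

end

theorem exists_cv (hC : C.IsStable) (hC' : C'.IsStable) (hb₀' : b₀' ∈ C'.B)
    (hb : Tendsto b 𝒰 (𝓝 b₀)) (hb' : Tendsto b' 𝒰 (𝓝 b₀'))
    (hφ : ∀ᶠ j in (𝒰 : Filter ι), FIso C (b j) C' (b' j) (φ j))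
    (hi : ∀ᶠ j in (𝒰 : Filter ι), LeftInvOn (ψ j) (φ j) (C.fib (b j)))
    (h1 : ∀ p ∈ C.fib b₀, Sm C p → ∃ q, Sm C' q ∧ Cv C C' 𝒰 b φ p q)
    (h2 : ∀ q ∈ C'.fib b₀', Sm C' q → ∃ r, Sm C r ∧ Cv C' C 𝒰 b' ψ q r) :
    ∃ φ₀ : C.X → C'.X, ∀ p ∈ C.fib b₀, Cv C C' 𝒰 b φ p (φ₀ p) := by
  obtain ⟨q₀, -⟩ := (hC'.2.2.2.2.2 b₀' hb₀').1.nonempty
  have : Nonempty C'.X := ⟨q₀⟩
  have h3 : ∀ p ∈ C.fib b₀, ∃ q, Cv C C' 𝒰 b φ p q := fun p hp => by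
    by_cases hs : Sm C p
    · exact (h1 p hp hs).imp fun _ h => h.2
    · exact cv_node hC hC' hb₀' hb hb' hφ hi h2 hp hs
  choose! φ₀ h4 using h3
  exact ⟨φ₀, h4⟩

/-- **Properness** from the convergence at the smooth points. -/
theorem ext (H : SMC) : Proper := by
  intro L _ m m' C C' hC hC' ι 𝒰 b b' φ b₀ hb₀ b₀' hb₀' hb hb' hφ
  obtain ⟨ψ, hψ⟩ := Eventually.choice (l := (𝒰 : Filter ι))
    (r := fun j ψ => FIso C' (b' j) C (b j) ψ ∧ InvOn ψ (φ j) (C.fib (b j)) (C'.fib (b' j))) (by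
      filter_upwards [hφ, hb.eventually (hC.1.mem_nhds hb₀), hb'.eventually (hC'.1.mem_nhds hb₀')]
        with j h1 h2 h3 using h1.symm hC hC' h2 h3)
  have hψ1 := hψ.mono fun _ h => h.1
  have hi := hψ.mono fun _ h => h.2.1
  have hi' := hψ.mono fun _ h => h.2.2
  have h1 := H L m m' C C' hC hC' ι 𝒰 b b' φ b₀ hb₀ b₀' hb₀' hb hb' hφ
  have h2 := H L m' m C' C hC' hC ι 𝒰 b' b ψ b₀' hb₀' b₀ hb₀ hb' hb hψ1
  obtain ⟨φ₀, h3⟩ := exists_cv hC hC' hb₀' hb hb' hφ hi h1 h2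
  obtain ⟨ψ₀, h4⟩ := exists_cv hC' hC hb₀ hb' hb hψ1 hi' h2 h1
  have n1 : ∀ p ∈ C.fib b₀, (near C 𝒰 b p).NeBot := fun p hp =>
    near_neBot hC (by rwa [show C.π p = b₀ from hp])
  have n2 : ∀ p ∈ C'.fib b₀', (near C' 𝒰 b' p).NeBot := fun p hp =>
    near_neBot hC' (by rwa [show C'.π p = b₀' from hp])
  have m1 : MapsTo φ₀ (C.fib b₀) (C'.fib b₀') := fun p hp =>
    have := n1 p hp
    lim_fib hC' hb' hφ le_rfl (h3 p hp)
  have m2 : MapsTo ψ₀ (C'.fib b₀') (C.fib b₀) := fun p hp =>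
    have := n2 p hp
    lim_fib hC hb hψ1 le_rfl (h4 p hp)
  have hinv : InvOn ψ₀ φ₀ (C.fib b₀) (C'.fib b₀') :=
    ⟨fun p hp => have := n1 p hp; back hC hφ hi le_rfl (h3 p hp) (h4 _ (m1 hp)),
      fun p hp => have := n2 p hp; back hC' hψ1 hi' le_rfl (h4 p hp) (h3 _ (m2 hp))⟩
  exact ⟨φ₀, ⟨hinv.bijOn m1 m2, cont_lim hC hC' hb h3,
    fun p hp f hf => fh_lim hC hC' hb hb' hφ h3 hp hf,
    mark_lim hC hC' hb₀ hb₀' hb hb' hφ h3⟩, h3⟩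

/-- The form for arbitrary filters (in particular for sequences). -/
theorem proper_filter (H : Proper) [Finite L] (hC : C.IsStable) (hC' : C'.IsStable)
    {l : Filter ι} [l.NeBot] (hb₀ : b₀ ∈ C.B) (hb₀' : b₀' ∈ C'.B) (hb : Tendsto b l (𝓝 b₀))
    (hb' : Tendsto b' l (𝓝 b₀')) (h : ∀ᶠ j in l, ∃ φ, FIso C (b j) C' (b' j) φ) :
    ∃ φ₀, FIso C b₀ C' b₀' φ₀ := by
  obtain ⟨φ, hφ⟩ := h.choice
  have h1 := Ultrafilter.of_le l
  exact (H L m m' C C' hC hC' ι (Ultrafilter.of l) b b' φ b₀ hb₀ b₀' hb₀' (hb.mono_left h1)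
    (hb'.mono_left h1) (hφ.filter_mono h1)).imp fun _ h => h.1

end Vale.Agent.P273SF

end
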