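import Vale.Agent.P273SD.Lim

/-!
Points of nearby fibres; the neck of a node is connected.
-/

noncomputable section

namespace Vale.Agent.P273SF

open Set Filter Topology Metric Vale.Agent.P273.H183 Vale.Agent.P273.H948 Vale.Agent.P273SD

variable {L : Type} {m : ℕ} {ι : Type} {C : Fam L m}

theorem hol_ev (hC : C.IsStable) {f : C.X → ℂ} {p : C.X} (hf : C.hol f p) :
    ContinuousAt f p ∧ ∀ᶠ q in 𝓝 p, C.hol f q := by
  obtain ⟨U, u, v, t, hU, hm⟩ := exists_mod hC p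
  obtain ⟨k, hk, ek⟩ := (hm.hol p hU f).1 hf
  refine ⟨(ContinuousAt.comp (g := k) hk.continuousAt (hm.cont hU)).congr ek.symm, ?_⟩
  filter_upwards [hm.isOpen.mem_nhds hU, (hm.cont hU).eventually hk.eventually_analyticAt,
    ek.eventually_nhds] with x h1 h2 h3
  exact (hm.hol x h1 f).2 ⟨k, h2, h3⟩

theorem tendsto_near {κ : Type} {k : Filter κ} {l : Filter ι} {b : ι → Fin m → ℂ} {p : C.X}
    {a : κ → ι} {σ : κ → C.X} (ha : Tendsto a k l) (hσ : Tendsto σ k (𝓝 p))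
    (hb : ∀ᶠ x in k, C.π (σ x) = b (a x)) : Tendsto (fun x => (a x, σ x)) k (near C l b p) :=
  tendsto_inf.2 ⟨ha.prodMk hσ, tendsto_principal.2 hb⟩

theorem near_fst {l : Filter ι} {b : ι → Fin m → ℂ} {p : C.X} :
    Tendsto Prod.fst (near C l b p) l := tendsto_fst.mono_left inf_le_left

theorem near_snd {l : Filter ι} {b : ι → Fin m → ℂ} {p : C.X} :
    Tendsto Prod.snd (near C l b p) (𝓝 p) := tendsto_snd.mono_left inf_le_left

theorem near_fib {l : Filter ι} {b : ι → Fin m → ℂ} {p : C.X} :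
    ∀ᶠ x in near C l b p, C.π x.2 = b x.1 :=
  mem_inf_of_right (mem_principal_self _)

theorem ev_near {l : Filter ι} {b : ι → Fin m → ℂ} {p : C.X} {P : ι → C.X → Prop} :
    (∀ᶠ x in near C l b p, P x.1 x.2) ↔
      ∃ W ∈ 𝓝 p, ∀ᶠ j in l, ∀ q ∈ W, C.π q = b j → P j q := by
  rw [near, eventually_inf_principal, eventually_prod_iff]
  constructor
  · rintro ⟨pa, ha, pb, hb, h⟩
    exact ⟨_, hb, ha.mono fun j hj q hq => h hj hq⟩
  · rintro ⟨W, hW, h⟩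
    exact ⟨_, h, fun q => q ∈ W, hW, fun hj _ hq => hj _ hq⟩

/-- Every point is a limit of points of the nearby fibres. -/
theorem exists_sec (hC : C.IsStable) {l : Filter ι} {b : ι → Fin m → ℂ} {p : C.X}
    (hb : Tendsto b l (𝓝 (C.π p))) :
    ∃ σ : ι → C.X, Tendsto σ l (𝓝 p) ∧ ∀ᶠ j in l, C.π (σ j) = b j := by
  have : Nonempty C.X := ⟨p⟩
  by_cases hs : Sm C p
  · obtain ⟨U, u, v, t, hU, h, h0⟩ := hs
    have h1 : Tendsto (fun j => (b j, u p)) l (𝓝 (C.π p, u p)) :=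
      hb.prodMk_nhds tendsto_const_nhds
    exact ⟨fun j => Pc C U u v t (b j) (u p), (tendsto_Pc h hU h0).comp h1,
      (h1.eventually (ev_Pc h hU h0)).mono fun j hj => hj.2.1⟩
  · obtain ⟨U, u, v, t, hU, h⟩ := exists_mod hC p
    obtain ⟨h1, h2⟩ := node_of_not_sm hs h hU
    choose s hs using fun j => IsAlgClosed.exists_eq_mul_self (t (b j))
    have h3 : t (C.π p) = 0 := by rw [← h.eqn p hU, h1, zero_mul]
    have h4 : Tendsto (fun j => t (b j)) l (𝓝 0) := h3 ▸ (h.an p hU).continuousAt.tendsto.comp hb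
    have h5 : Tendsto s l (𝓝 0) := by
      rw [tendsto_zero_iff_norm_tendsto_zero] at h4 ⊢
      have h6 := h4.sqrt
      rw [Real.sqrt_zero] at h6
      refine h6.congr fun j => ?_
      rw [hs j, norm_mul, Real.sqrt_mul_self (norm_nonneg _)]
    have h6 : Tendsto (fun j => ((b j, s j, s j) : Amb m)) l (𝓝[Mset t] (Emap C.π u v p)) := by
      refine tendsto_nhdsWithin_iff.2 ⟨?_, Eventually.of_forall fun j => (hs j).symm⟩
      simp only [Emap, h1, h2]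
      exact hb.prodMk_nhds (h5.prodMk_nhds h5)
    exact ⟨fun j => Qc C U u v (b j, s j, s j), (tendsto_Qc h hU).comp h6,
      (h6.eventually (ev_Qc h hU)).mono fun j hj => congrArg Prod.fst hj.2⟩

theorem near_neBot (hC : C.IsStable) {l : Filter ι} [l.NeBot] {b : ι → Fin m → ℂ} {p : C.X}
    (hb : Tendsto b l (𝓝 (C.π p))) : (near C l b p).NeBot := by
  obtain ⟨σ, h1, h2⟩ := exists_sec hC hb
  exact (tendsto_near tendsto_id h1 h2).neBot

theorem pre_annulus (a r : ℝ) (ha : 0 ≤ a) : IsPreconnected {x : ℂ | a < ‖x‖ ∧ ‖x‖ < r} := by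
  have h1 : {x : ℂ | a < ‖x‖ ∧ ‖x‖ < r} =
      (fun y : ℝ × ℝ => (y.1 : ℂ) * Complex.exp (y.2 * Complex.I)) '' (Ioo a r ×ˢ univ) := by
    ext x
    constructor
    · exact fun hx => ⟨(‖x‖, x.arg), ⟨hx, trivial⟩, Complex.norm_mul_exp_arg_mul_I x⟩
    · rintro ⟨y, ⟨hy, -⟩, rfl⟩
      rw [mem_ofPred_eq, norm_mul, Complex.norm_exp_ofReal_mul_I, mul_one, Complex.norm_real,
        Real.norm_of_nonneg (ha.trans hy.1.le)]
      exact hy
  rw [h1]
  exact (isPreconnected_Ioo.prod isPreconnected_univ).image _ (by fun_prop)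

theorem pre_neck (τ : ℂ) {r : ℝ} (hr : 0 < r) :
    IsPreconnected {y : ℂ × ℂ | y.1 * y.2 = τ ∧ ‖y.1‖ < r ∧ ‖y.2‖ < r} := by
  by_cases hτ : τ = 0
  · have h1 : {y : ℂ × ℂ | y.1 * y.2 = τ ∧ ‖y.1‖ < r ∧ ‖y.2‖ < r} =
        (ball (0 : ℂ) r ×ˢ {0}) ∪ ({0} ×ˢ ball (0 : ℂ) r) := by
      ext ⟨x, y⟩
      simp only [hτ, mem_ofPred_eq, mul_eq_zero, mem_union, mem_prod, mem_ball_zero_iff,
        mem_singleton_iff]
      constructor
      · rintro ⟨h | h, h1, h2⟩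
        · exact Or.inr ⟨h, h2⟩
        · exact Or.inl ⟨h1, h⟩
      · rintro (⟨h1, rfl⟩ | ⟨rfl, h1⟩)
        · exact ⟨Or.inr rfl, h1, by simpa using hr⟩
        · exact ⟨Or.inl rfl, by simpa using hr, h1⟩
    rw [h1]
    exact IsPreconnected.union (0, 0) ⟨mem_ball_self hr, rfl⟩ ⟨rfl, mem_ball_self hr⟩
      ((convex_ball _ _).isPreconnected.prod isPreconnected_singleton)
      (isPreconnected_singleton.prod (convex_ball _ _).isPreconnected)
  · have h0 : 0 < ‖τ‖ / r := div_pos (norm_pos_iff.2 hτ) hr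
    have h1 : {y : ℂ × ℂ | y.1 * y.2 = τ ∧ ‖y.1‖ < r ∧ ‖y.2‖ < r} =
        (fun x : ℂ => (x, τ / x)) '' {x : ℂ | ‖τ‖ / r < ‖x‖ ∧ ‖x‖ < r} := by
      ext ⟨x, y⟩
      constructor
      · rintro ⟨h, h1, h2⟩
        have hx : x ≠ 0 := fun e => hτ (by rw [← h, e, zero_mul])
        refine ⟨x, ⟨?_, h1⟩, Prod.ext rfl ?_⟩
        · rw [div_lt_iff₀ hr, ← h, norm_mul]
          exact mul_lt_mul_of_pos_left h2 (norm_pos_iff.2 hx)
        · rw [← h]
          exact mul_div_cancel_left₀ _ hx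
      · rintro ⟨z, ⟨h1, h2⟩, e⟩
        obtain ⟨rfl, rfl⟩ := Prod.mk.inj e
        have hz : 0 < ‖z‖ := h0.trans h1
        refine ⟨mul_div_cancel₀ _ (norm_pos_iff.1 hz), h2, ?_⟩
        rw [norm_div, div_lt_iff₀ hz, mul_comm, ← div_lt_iff₀ hr]
        exact h1
    rw [h1]
    refine (pre_annulus _ r h0.le).image _ (continuousOn_id.prodMk
      (continuousOn_const.div continuousOn_id fun x hx => norm_pos_iff.1 (h0.trans hx.1)))

/-- The neck of a node is connected. -/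
theorem conn_node (hC : C.IsStable) {p : C.X} (hs : ¬ Sm C p) {W : Set C.X} (hW : W ∈ 𝓝 p) :
    ∃ W' ∈ 𝓝 p, W' ⊆ W ∧ ∀ᶠ c in 𝓝 (C.π p), IsPreconnected (W' ∩ C.fib c) := by
  have : Nonempty C.X := ⟨p⟩
  obtain ⟨U, u, v, t, hU, h⟩ := exists_mod hC p
  obtain ⟨h1, h2⟩ := node_of_not_sm hs h hU
  have h3 := (ev_Qc h hU).and ((tendsto_Qc h hU).eventually hW)
  rw [eventually_nhdsWithin_iff, Metric.eventually_nhds_iff_ball] at h3
  obtain ⟨r, hr, h3⟩ := h3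
  have hb : ∀ w : Amb m, w ∈ ball (Emap C.π u v p) r ↔
      w.1 ∈ ball (C.π p) r ∧ ‖w.2.1‖ < r ∧ ‖w.2.2‖ < r := by
    intro w
    simp only [Emap, h1, h2, mem_ball, Prod.dist_eq, max_lt_iff, dist_zero_right]
  refine ⟨U ∩ Emap C.π u v ⁻¹' ball (Emap C.π u v p) r,
    inter_mem (h.isOpen.mem_nhds hU) ((h.cont hU) (ball_mem_nhds _ hr)), fun q hq => ?_, ?_⟩
  · have h4 := (h3 _ hq.2 (h.eqn q hq.1)).2
    rwa [Qc_E h hq.1] at h4
  · filter_upwards [ball_mem_nhds (C.π p) hr] with c hc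
    have h4 : (U ∩ Emap C.π u v ⁻¹' ball (Emap C.π u v p) r) ∩ C.fib c =
        (fun y : ℂ × ℂ => Qc C U u v (c, y)) ''
          {y : ℂ × ℂ | y.1 * y.2 = t c ∧ ‖y.1‖ < r ∧ ‖y.2‖ < r} := by
      ext q
      constructor
      · rintro ⟨⟨h5, h6⟩, h7⟩
        obtain rfl : C.π q = c := h7
        exact ⟨(u q, v q), ⟨h.eqn q h5, ((hb _).1 h6).2⟩, Qc_E h h5⟩
      · rintro ⟨y, hy, rfl⟩
        have h5 : ((c, y) : Amb m) ∈ ball (Emap C.π u v p) r := (hb _).2 ⟨hc, hy.2⟩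
        obtain ⟨⟨h6, h7⟩, -⟩ := h3 _ h5 hy.1
        exact ⟨⟨h6, by rw [mem_preimage, h7]; exact h5⟩, congrArg Prod.fst h7⟩
    rw [h4]
    refine (pre_neck (t c) hr).image _ fun y hy => ?_
    obtain ⟨⟨h6, h7⟩, -⟩ := h3 (c, y) ((hb _).2 ⟨hc, hy.2⟩) hy.1
    have h8 := tendsto_Qc h h6
    rw [h7] at h8
    refine h8.comp (tendsto_nhdsWithin_iff.2 ⟨?_, eventually_mem_nhdsWithin.mono fun _ hx => hx.1⟩)
    exact (tendsto_const_nhds.prodMk_nhds tendsto_id).mono_left nhdsWithin_le_nhds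

end Vale.Agent.P273SF

end
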